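import Vale.Agent.P203.MathlibUsed
import Vale.Agent.P203.Defs

set_option linter.all false

section

namespace Vale.Agent.P203

open CoxeterSystem

variable {S : Type} (M : CoxeterMatrix S)

/-- degree homomorphism -/
noncomputable def degHom : ArtinGroup M →* Multiplicative ℤ :=
  PresentedGroup.toGroup (f := fun _ : S => Multiplicative.ofAdd (1 : ℤ)) (by
    rintro r ⟨s, t, h, rfl⟩
    simp [map_list_prod, List.map_map, Function.comp_def])

theorem degHom_gen (s : S) : degHom M (artinGen M s) = Multiplicative.ofAdd 1 := by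
  simp only [degHom, artinGen, PresentedGroup.toGroup.of]

theorem redWord_spec (w : M.Group) :
    M.toCoxeterSystem.IsReduced (redWord M w) ∧ w = M.toCoxeterSystem.wordProd (redWord M w) :=
  (M.toCoxeterSystem.exists_isReduced w).choose_spec

theorem length_redWord (w : M.Group) : (redWord M w).length = len M w := by
  have h := redWord_spec M w
  have h1 := h.1.eq
  rw [← h.2] at h1
  exact h1.symm

theorem degHom_lift (w : M.Group) :
    degHom M (lift M (artinGen M) w) = Multiplicative.ofAdd (len M w : ℤ) := by
  unfold lift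
  rw [map_list_prod, List.map_map]
  have : (degHom M ∘ artinGen M) = fun _ => Multiplicative.ofAdd (1 : ℤ) := by
    funext s; simp only [Function.comp_apply, degHom_gen]
  rw [this, List.map_const', List.prod_replicate, length_redWord]
  rw [← ofAdd_nsmul]; simp only [Int.nsmul_eq_mul, mul_one]

theorem len_one : len M (1 : M.Group) = 0 := M.toCoxeterSystem.length_one

theorem lift_one {G : Type} [Group G] (γ : S → G) : lift M γ 1 = 1 := by
  have h := length_redWord M 1
  rw [len_one] at h
  have := List.length_eq_zero_iff.mp h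
  simp [lift, this]

theorem len_pos {w : M.Group} (hw : w ≠ 1) : 0 < len M w := by
  rcases Nat.eq_zero_or_pos (len M w) with h | h
  · exact absurd (M.toCoxeterSystem.length_eq_zero_iff.mp h) hw
  · exact h

theorem one_mem_minReps (T : Finset S) (s : S) : (1 : M.Group) ∈ minReps M T s := by
  refine ⟨one_mem _, fun t _ _ => ?_⟩
  have h1 : len M (M.simple t) = 1 := by
    have := M.toCoxeterSystem.length_simple t
    rwa [CoxeterMatrix.toCoxeterSystem_simple] at this
  rw [one_mul, len_one, h1]; exact one_pos

theorem finite_minReps {T : Finset S} (hT : Spherical M T) (s : S) : (minReps M T s).Finite :=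
  Set.Finite.subset hT fun _ hw => hw.1

/-- coefficient at `g` -/
def coefAt {G : Type} (g : G) : MonoidAlgebra ℤ G →+ ℤ where
  toFun a := a.coeff g
  map_zero' := by simp
  map_add' := by intro a b; simp

theorem coefAt_apply {G : Type} (g : G) (a : MonoidAlgebra ℤ G) : coefAt g a = a.coeff g := rfl

theorem coefAt_mul_single {G : Type} [Group G] (g h : G) (a : MonoidAlgebra ℤ G) (r : ℤ) :
    coefAt g (a * MonoidAlgebra.single h r) = coefAt (g * h⁻¹) a * r := by
  rw [coefAt_apply, coefAt_apply]
  exact MonoidAlgebra.coeff_mul_single_eq_coeff_mul _ (by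
    intro m' _; exact eq_mul_inv_iff_mul_eq.symm)

variable [LinearOrder S]

/-- Evaluation of the boundary at a group element of minimal degree. -/
theorem bdry_apply_of_minimal (n : ℕ) (z : Chain M (ArtinGroup M) (n + 1)) (g : ArtinGroup M)
    (hg : ∀ T h, coefAt h (z T) ≠ 0 → (degHom M g).toAdd ≤ (degHom M h).toAdd) (R : Cell M n) :
    coefAt g ((bdry M (artinGen M) n z) R) =
      nerveBdry M n (z.mapRange (coefAt g) (map_zero _)) R := by
  classical
  unfold bdry nerveBdry
  rw [Finsupp.linearCombination_apply, Finsupp.linearCombination_apply]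
  rw [Finsupp.sum_mapRange_index (by intro T; simp only [Finset.univ_eq_attach, zero_smul])]
  rw [Finsupp.sum_apply, Finsupp.sum_apply]
  rw [Finsupp.sum, Finsupp.sum]
  rw [map_sum]
  refine Finset.sum_congr rfl fun T _ => ?_
  rw [Finset.smul_sum, Finset.smul_sum, Finsupp.finsetSum_apply, Finsupp.finsetSum_apply,
    map_sum]
  refine Finset.sum_congr rfl fun s _ => ?_
  have hfin := finite_minReps M T.spherical s.1
  rw [finsum_mem_eq_finite_toFinset_sum _ hfin]
  rw [Finset.smul_sum, Finsupp.finsetSum_apply, map_sum]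
  rw [Finset.sum_eq_single (1 : M.Group)]
  · rw [lift_one, len_one]
    by_cases hR : T.face s.1 s.2 = R
    · subst hR
      rw [Finsupp.smul_apply, Finsupp.single_eq_same, smul_eq_mul, coefAt_mul_single,
        Finsupp.smul_apply, Finsupp.single_eq_same]
      simp
    · rw [Finsupp.smul_apply, Finsupp.single_eq_of_ne (Ne.symm hR), Finsupp.smul_apply,
        Finsupp.single_eq_of_ne (Ne.symm hR)]
      simp
  · intro w _ hw
    rw [Finsupp.smul_apply]
    by_cases hR : T.face s.1 s.2 = R
    · subst hR
      rw [Finsupp.single_eq_same, smul_eq_mul]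
      have : coefAt (g * (lift M (artinGen M) w)⁻¹) (z T) = 0 := by
        by_contra hne
        have h1 := hg T _ hne
        rw [map_mul, map_inv, degHom_lift] at h1
        have h2 := len_pos M hw
        simp only [toAdd_mul, toAdd_inv, toAdd_ofAdd, le_add_iff_nonneg_right, Int.neg_nonneg, Int.natCast_nonpos_iff] at h1
        omega
      rw [coefAt_mul_single, this, zero_mul]
    · rw [Finsupp.single_eq_of_ne (Ne.symm hR)]
      simp only [smul_eq_mul, mul_zero, map_zero]
  · intro h
    exact absurd (hfin.mem_toFinset.mpr (one_mem_minReps M T.T s.1)) h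

theorem top_vanishing (n : ℕ) (hL : ∀ c : Cell M (n + 1) →₀ ℤ, nerveBdry M n c = 0 → c = 0)
    (z : Chain M (ArtinGroup M) (n + 1)) (hz : bdry M (artinGen M) n z = 0) : z = 0 := by
  classical
  by_contra hne
  -- the finite set of degrees
  let D : Finset ℤ := z.support.biUnion fun T =>
    (z T).coeff.support.image fun h => (degHom M h).toAdd
  have hDne : D.Nonempty := by
    obtain ⟨T, hT⟩ := Finsupp.ne_iff.mp hne
    have hT' : z T ≠ 0 := by simpa only [ne_eq, Finsupp.coe_zero, Pi.zero_apply] using hT
    obtain ⟨h, hh⟩ : ∃ h, (z T).coeff h ≠ 0 := by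
      by_contra hcon
      push Not at hcon
      exact hT' (MonoidAlgebra.ext (Finsupp.ext hcon))
    refine ⟨(degHom M h).toAdd, Finset.mem_biUnion.mpr ⟨T, ?_, ?_⟩⟩
    · simpa only [Finsupp.mem_support_iff, ne_eq, Finsupp.coe_zero, Pi.zero_apply] using hT
    · exact Finset.mem_image.mpr ⟨h, by simpa only [Finsupp.mem_support_iff, ne_eq] using hh, rfl⟩
  obtain ⟨k, hk⟩ : ∃ k, k = D.min' hDne := ⟨_, rfl⟩
  have hkD : k ∈ D := hk ▸ D.min'_mem hDne
  obtain ⟨T, hT, hk'⟩ := Finset.mem_biUnion.mp hkD
  obtain ⟨g, hg, hgk⟩ := Finset.mem_image.mp hk'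
  have hmin : ∀ T h, coefAt h (z T) ≠ 0 → (degHom M g).toAdd ≤ (degHom M h).toAdd := by
    intro T' h hh
    rw [hgk, hk]
    refine D.min'_le _ (Finset.mem_biUnion.mpr ⟨T', ?_, Finset.mem_image.mpr ⟨h, ?_, rfl⟩⟩)
    · rw [Finsupp.mem_support_iff]; rintro h0; exact hh (by rw [h0]; rfl)
    · exact Finsupp.mem_support_iff.mpr hh
  have hc : nerveBdry M n (z.mapRange (coefAt g) (map_zero _)) = 0 := by
    ext R
    rw [← bdry_apply_of_minimal M n z g hmin R, hz]
    simp
  have h0 := hL _ hc
  have h1 : (z T).coeff g = 0 := by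
    have := DFunLike.congr_fun h0 T
    rwa [Finsupp.mapRange_apply] at this
  exact (Finsupp.mem_support_iff.mp hg) h1

end Vale.Agent.P203
end

section

namespace Vale.Agent.P203

open CoxeterSystem

variable {S : Type} [Fintype S] [LinearOrder S] (M : CoxeterMatrix S)

/-- If `|S| = n + 2` and some `(n+1)`-subset of `S` is not spherical, the nerve carries no nonzero
`n`-cycle. -/
theorem nerve_no_top_cycle (n : ℕ) (hcard : Fintype.card S = n + 2)
    (a : S) (ha : ¬ Spherical M (Finset.univ.erase a))
    (c : Cell M (n + 1) →₀ ℤ) (hc : nerveBdry M n c = 0) : c = 0 := by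
  classical
  -- every cell `T` of size `n+1` is `univ.erase b` for a unique `b ≠ a`
  have hex : ∀ T : Cell M (n + 1), ∃ b, b ≠ a ∧ T.T = Finset.univ.erase b := by
    intro T
    have h1 : (T.Tᶜ).card = 1 := by
      rw [Finset.card_compl, T.card_eq, hcard]; omega
    obtain ⟨b, hb⟩ := Finset.card_eq_one.mp h1
    have hT : T.T = Finset.univ.erase b := by
      have : T.T = (T.Tᶜ)ᶜ := (compl_compl _).symm
      rw [this, hb]; ext x; simp only [Finset.mem_compl, Finset.mem_singleton, Finset.mem_erase, ne_eq, Finset.mem_univ, and_true]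
    refine ⟨b, ?_, hT⟩
    rintro rfl
    exact ha (hT ▸ T.spherical)
  ext T
  obtain ⟨b, hba, hT⟩ := hex T
  have haT : a ∈ T.T := by rw [hT]; simp only [Finset.mem_erase, ne_eq, Ne.symm hba, not_false_eq_true, Finset.mem_univ, and_self]
  -- evaluate the boundary at the facet `T.face a`
  have h0 : nerveBdry M n c (T.face a haT) = 0 := by rw [hc]; rfl
  have key : ∀ (T' : Cell M (n + 1)) (s : S) (hs : s ∈ T'.T),
      T'.face s hs = T.face a haT → T' = T ∧ s = a := by
    intro T' s hs heq
    obtain ⟨b', hb'a, hT'⟩ := hex T'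
    have h2 : T'.T.erase s = T.T.erase a := congrArg Cell.T heq
    rw [hT, hT'] at h2
    have hsb' : s ≠ b' := by
      rintro rfl; rw [hT'] at hs; simp only [Finset.mem_erase, ne_eq, not_true_eq_false, Finset.mem_univ, and_true] at hs
    have hmem : ∀ x, (x = s ∨ x = b') ↔ (x = a ∨ x = b) := by
      intro x
      have := Finset.ext_iff.mp h2 x
      simp only [Finset.mem_erase, Finset.mem_univ, and_true] at this
      constructor
      · intro h; by_contra hcon; push Not at hcon
        have := this.mpr ⟨hcon.1, hcon.2⟩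
        rcases h with h | h
        · exact this.1 h
        · exact this.2 h
      · intro h; by_contra hcon; push Not at hcon
        have := this.mp ⟨hcon.1, hcon.2⟩
        rcases h with h | h
        · exact this.1 h
        · exact this.2 h
    have hb'b : b' = b := by
      rcases (hmem b').mp (Or.inr rfl) with h | h
      · exact absurd h hb'a
      · exact h
    have hsa : s = a := by
      rcases (hmem s).mp (Or.inl rfl) with h | h
      · exact h
      · exact absurd (h.trans hb'b.symm) hsb'
    refine ⟨?_, hsa⟩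
    ext x
    rw [hT, hT', hb'b]
  unfold nerveBdry at h0
  rw [Finsupp.linearCombination_apply, Finsupp.sum_apply, Finsupp.sum] at h0
  have h3 : ∀ T' ∈ c.support, T' ≠ T →
      (c T' • ∑ s : {s // s ∈ T'.T}, Finsupp.single (T'.face s.1 s.2) (T'.sgn s.1))
        (T.face a haT) = 0 := by
    intro T' _ hne
    rw [Finsupp.smul_apply, Finsupp.finsetSum_apply]
    rw [Finset.sum_eq_zero, smul_zero]
    intro s _
    rw [Finsupp.single_eq_of_ne]
    intro h
    exact hne (key T' s.1 s.2 h.symm).1
  by_contra hcT
  have hcT' : c T ≠ 0 := by simpa only [ne_eq, Finsupp.coe_zero, Pi.zero_apply] using hcT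
  rw [Finset.sum_eq_single T h3 (fun h => absurd (Finsupp.mem_support_iff.mpr hcT') h)] at h0
  rw [Finsupp.smul_apply, Finsupp.finsetSum_apply] at h0
  rw [Finset.sum_eq_single (⟨a, haT⟩ : {s // s ∈ T.T})] at h0
  · rw [Finsupp.single_eq_same] at h0
    have hs : T.sgn a ≠ 0 := by unfold Cell.sgn; exact pow_ne_zero _ (by norm_num)
    rcases mul_eq_zero.mp h0 with h | h
    · exact hcT' h
    · exact hs h
  · intro s _ hne
    rw [Finsupp.single_eq_of_ne]
    intro h
    exact hne (Subtype.ext (key T s.1 s.2 h.symm).2)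
  · intro h; exact absurd (Finset.mem_univ _) h

end Vale.Agent.P203
end
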